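import Vale.Agent.P266.H114.Main

/-!
# P266: in which dimensions does the Lipman-Zariski conjecture hold?

It holds in dimension `d` if and only if `d ≤ 1`: in every dimension `d ≥ 2` there is a normal
affine variety with free tangent sheaf that is not regular, and in dimension at most one a variety
with locally free tangent sheaf is smooth.
-/

namespace Vale.Agent.Results.P266.AllDimensions

open Vale.Agent.P266.H114

/-- The Lipman-Zariski conjecture fails in every dimension `d ≥ 2`, even for normal affine varieties
with free tangent sheaf, and holds in dimension at most one. -/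
theorem result :
    (∀ d : ℕ, (∀ (A : Type) [CommRing A] [IsDomain A] [Algebra ℂ A] [Algebra.FiniteType ℂ A],
        ringKrullDim A = d → Module.Projective A (Derivation ℂ A A) → IsRegularRing A) ↔ d ≤ 1) ∧
    (∀ d : ℕ, 2 ≤ d → ∃ (A : Type) (_ : CommRing A) (_ : IsDomain A) (_ : Algebra ℂ A),
      Algebra.FiniteType ℂ A ∧ IsIntegrallyClosed A ∧ ringKrullDim A = d ∧
      Module.Free A (Derivation ℂ A A) ∧ Module.finrank A (Derivation ℂ A A) = d ∧
      ¬ IsRegularRing A ∧ ¬ Algebra.Smooth ℂ A) ∧
    (∀ (A : Type) [CommRing A] [IsDomain A] [Algebra ℂ A] [Algebra.FiniteType ℂ A],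
      Module.Projective A (Derivation ℂ A A) → ringKrullDim A ≤ 1 →
        IsRegularRing A ∧ Algebra.Smooth ℂ A) :=
  ⟨holds_iff, ex_two.of_two, fun A _ _ _ _ => low_dim ℂ A⟩

end Vale.Agent.Results.P266.AllDimensions
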