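import Vale.Agent.P266.H114.Defs
import Vale.Agent.P266.H114.KGraded

/-!
# P266: the Lipman-Zariski conjecture over every field of characteristic zero: the exact range

The conjecture is false over `ℂ` (part 1). Over every field of characteristic zero it fails in every
dimension `d ≥ 2` and holds in dimension `≤ 1`, and for nonnegatively graded algebras it holds
exactly when the degree zero part has dimension at most one.
-/

universe u

namespace Vale.Agent.Results.P266.EveryFieldExactRange

open Vale.Agent.P266.H114

/-- The Lipman-Zariski conjecture: disproof over `ℂ`, and the exact range of its validity over every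
field of characteristic zero, by dimension and, for graded algebras, by the dimension of the degree
zero part. -/
theorem result :
    (∃ (A : Type) (_ : CommRing A) (_ : IsDomain A) (_ : Algebra ℂ A),
      Algebra.FiniteType ℂ A ∧ IsIntegrallyClosed A ∧ ringKrullDim A = 2 ∧
      Module.Free A (Derivation ℂ A A) ∧ Module.finrank A (Derivation ℂ A A) = 2 ∧
      ¬ IsRegularRing A ∧ ¬ Algebra.Smooth ℂ A) ∧
    ∀ (k : Type u) [Field k] [CharZero k],
      (∀ d e : ℕ, 2 ≤ d → d ≤ e → Fails k d e) ∧
      (∀ d : ℕ, HoldsInDim k d ↔ d ≤ 1) ∧
      (∀ d e : ℕ, d ≤ e → (HoldsGraded k d e ↔ d ≤ 1)) :=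
  ⟨Vale.Agent.P266.CE.exists_normal_surface Vale.Agent.P266.CE.M.main,
    fun k _ _ => ⟨graded_example k, plain_iff k, graded_iff k⟩⟩

end Vale.Agent.Results.P266.EveryFieldExactRange
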